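import Mathlib
import Vale.Agent.Lib.P243.R3.Defs
import Vale.Agent.Lib.P243.R3.Defs4
open Set

/-!
# P243, `r_3 > 1/3`, job J16 (backup copy by helper96): a facet plane contains an endpoint of
every star chord
-/

namespace Vale.Agent.Lib.P243.R3

/-- The centroid of three points of a convex set lies in the set. -/
theorem M4c_centroid_mem_h96 {K : Set E3} (hconv : Convex ℝ K) {u1 u2 u3 : E3}
    (h1 : u1 ∈ K) (h2 : u2 ∈ K) (h3 : u3 ∈ K) :
    (1 / 3 : ℝ) • (u1 + u2 + u3) ∈ K := by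
  have hm : (1 / 2 : ℝ) • u1 + (1 / 2 : ℝ) • u2 ∈ K :=
    hconv h1 h2 (by norm_num) (by norm_num) (by norm_num)
  have hg : (2 / 3 : ℝ) • ((1 / 2 : ℝ) • u1 + (1 / 2 : ℝ) • u2) + (1 / 3 : ℝ) • u3 ∈ K :=
    hconv hm h3 (by norm_num) (by norm_num) (by norm_num)
  have heq : (1 / 3 : ℝ) • (u1 + u2 + u3)
      = (2 / 3 : ℝ) • ((1 / 2 : ℝ) • u1 + (1 / 2 : ℝ) • u2) + (1 / 3 : ℝ) • u3 := by
    rw [smul_add, smul_add, smul_add, smul_smul, smul_smul]
    norm_num
  rw [heq]
  exact hg

/-- A point of `K` at which a nonzero functional attains its maximum over `K` is not interior. -/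
theorem M4c_not_interior_h96 {K : Set E3} {f : E3 →L[ℝ] ℝ} {M : ℝ} (hf0 : f ≠ 0)
    (hfle : ∀ k ∈ K, f k ≤ M) {g : E3} (hfg : f g = M) : g ∉ interior K := by
  intro hgi
  obtain ⟨v0, hv0⟩ : ∃ v, f v ≠ 0 := by
    by_contra hcon
    apply hf0
    ext v
    by_contra hv
    exact hcon ⟨v, by simpa using hv⟩
  obtain ⟨v, hv⟩ : ∃ v, 0 < f v := by
    rcases lt_or_gt_of_ne hv0 with h | h
    · exact ⟨-v0, by rw [map_neg]; linarith⟩
    · exact ⟨v0, h⟩
  have hnhds : interior K ∈ nhds g := isOpen_interior.mem_nhds hgi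
  obtain ⟨ε, hε, hball⟩ := Metric.mem_nhds_iff.mp hnhds
  set t : ℝ := ε / (2 * (‖v‖ + 1)) with ht
  have hvn : 0 ≤ ‖v‖ := norm_nonneg v
  have htpos : 0 < t := by rw [ht]; positivity
  have hmem : g + t • v ∈ Metric.ball g ε := by
    rw [Metric.mem_ball, dist_eq_norm, add_sub_cancel_left, norm_smul, Real.norm_eq_abs,
      abs_of_pos htpos, ht]
    have h1 : ε / (2 * (‖v‖ + 1)) * ‖v‖ = ε * (‖v‖ / (2 * (‖v‖ + 1))) := by ring
    rw [h1]
    have h2 : ‖v‖ / (2 * (‖v‖ + 1)) < 1 := by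
      rw [div_lt_one (by positivity)]
      linarith
    nlinarith
  have hK : g + t • v ∈ K := interior_subset (hball hmem)
  have := hfle _ hK
  rw [map_add, map_smul, hfg, smul_eq_mul] at this
  nlinarith

theorem M4c_facet_h96 {K : Set E3} (hK : Body K)
    (hsup : ∀ a b : E3, segment ℝ a b ⊆ frontier K →
      ∃ f : E3 →L[ℝ] ℝ, f ≠ 0 ∧ (∀ k ∈ K, f k ≤ f a) ∧ f b = f a)
    {f : E3 →L[ℝ] ℝ} {M : ℝ} (hF : Facet K f M) {p q : E3} (hpq : Star K p q) :
    f p = M ∨ f q = M := by
  obtain ⟨hf0, hfle, u1, u2, u3, h1, h2, h3, hf1, hf2, hf3, hli⟩ := hF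
  obtain ⟨-, -, -, hstar⟩ := hpq
  set g : E3 := (1 / 3 : ℝ) • (u1 + u2 + u3) with hg
  have hgK : g ∈ K := M4c_centroid_mem_h96 hK.conv h1 h2 h3
  have hfg : f g = M := by
    rw [hg, map_smul, map_add, map_add, hf1, hf2, hf3, smul_eq_mul]
    ring
  have hgfr : g ∈ frontier K := by
    rw [hK.compact.isClosed.frontier_eq]
    exact ⟨hgK, M4c_not_interior_h96 hf0 hfle hfg⟩
  -- the key step: an endpoint `a` joined to `g` inside the boundary lies on the plane
  have key : ∀ a : E3, segment ℝ a g ⊆ frontier K → f a = M := by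
    intro a ha
    have ha' : segment ℝ g a ⊆ frontier K := by rw [segment_symm]; exact ha
    obtain ⟨f', hf'0, hf'le, hf'a⟩ := hsup g a ha'
    have hf'g : f' g = (f' u1 + f' u2 + f' u3) / 3 := by
      rw [hg, map_smul, map_add, map_add, smul_eq_mul]
      ring
    have e1 : f' u1 = f' g := by
      have := hf'le u1 h1; have := hf'le u2 h2; have := hf'le u3 h3
      linarith
    have e2 : f' u2 = f' g := by
      have := hf'le u1 h1; have := hf'le u2 h2; have := hf'le u3 h3
      linarith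
    have e3 : f' u3 = f' g := by
      have := hf'le u1 h1; have := hf'le u2 h2; have := hf'le u3 h3
      linarith
    -- the kernel of `f'` is two-dimensional and spanned by `u2 - u1`, `u3 - u1`
    set fl : Module.Dual ℝ E3 := (f' : E3 →ₗ[ℝ] ℝ) with hfl
    have hfl0 : fl ≠ 0 := by
      intro h0
      apply hf'0
      ext v
      have := congrArg (fun l : E3 →ₗ[ℝ] ℝ => l v) h0
      simpa [hfl] using this
    have hker : Module.finrank ℝ (LinearMap.ker fl) + 1 = Module.finrank ℝ E3 :=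
      Module.Dual.finrank_ker_add_one_of_ne_zero hfl0
    have hE3 : Module.finrank ℝ E3 = 3 := by simp
    have hker2 : Module.finrank ℝ (LinearMap.ker fl) = 2 := by omega
    have hspan_le : Submodule.span ℝ (Set.range ![u2 - u1, u3 - u1]) ≤ LinearMap.ker fl := by
      rw [Submodule.span_le]
      rintro x ⟨i, rfl⟩
      fin_cases i
      · simp [hfl, e1, e2]
      · simp [hfl, e1, e3]
    have hspan_rank : Module.finrank ℝ (Submodule.span ℝ (Set.range ![u2 - u1, u3 - u1])) = 2 := by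
      rw [finrank_span_eq_card hli]
      simp
    have hspan_eq : Submodule.span ℝ (Set.range ![u2 - u1, u3 - u1]) = LinearMap.ker fl :=
      Submodule.eq_of_le_of_finrank_eq hspan_le (by rw [hspan_rank, hker2])
    have hamem : a - u1 ∈ LinearMap.ker fl := by
      simp [hfl, hf'a, e1]
    rw [← hspan_eq, Submodule.mem_span_range_iff_exists_fun] at hamem
    obtain ⟨c, hc⟩ := hamem
    rw [Fin.sum_univ_two] at hc
    have hfa : f (a - u1) = 0 := by
      rw [← hc]
      simp [hf1, hf2, hf3]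
    rw [map_sub, hf1] at hfa
    linarith
  rcases hstar g hgfr with h | h
  · exact Or.inl (key p h)
  · exact Or.inr (key q h)

end Vale.Agent.Lib.P243.R3
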